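import Vale.Agent.P004X.P004E.H357.M1
import Vale.Agent.P004X.P004E.H3.Zi

/-!
# P004E, module M (part 2): the tilted Euler factors
-/

open Finset Real

namespace P004E.M

open P004G
open P004.H293 (E1 E1_mono E1_const)
open P004G.E3W (E1c EEc EEc_prod EEc_re EE_cs tt_exp)

lemma exp_taylor {u : ℝ} (hu : |u| ≤ 2) : |Real.exp u - (1 + u + u ^ 2 / 2)| ≤ 8 * |u| ^ 3 := by
  have h := Complex.norm_exp_sub_sum_le_norm_mul_exp (u : ℂ) 3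
  have e : Complex.exp (u : ℂ) - ∑ m ∈ range 3, (u : ℂ) ^ m / (m.factorial : ℂ) =
      ((Real.exp u - (1 + u + u ^ 2 / 2) : ℝ) : ℂ) := by
    simp only [Finset.sum_range_succ, Finset.sum_range_zero]
    push_cast [Nat.factorial]
    ring
  rw [e, Complex.norm_real, Complex.norm_real, Real.norm_eq_abs, Real.norm_eq_abs] at h
  refine h.trans ?_
  have h2 : Real.exp |u| ≤ 8 := by
    calc Real.exp |u| ≤ Real.exp 2 := Real.exp_le_exp.2 hu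
      _ = Real.exp 1 ^ 2 := by rw [← Real.exp_nat_mul]; norm_num
      _ ≤ 2.7182818286 ^ 2 := by
          have := Real.exp_one_lt_d9
          have h0 := Real.exp_pos 1
          gcongr
      _ ≤ 8 := by norm_num
  have h3 : 0 ≤ |u| ^ 3 := by positivity
  nlinarith

lemma abs_one_sub_le (l : ℝ) : |1 - l ^ 2 / 2| ≤ 1 + l ^ 2 := by
  rw [abs_le]
  constructor <;> nlinarith [sq_nonneg l]

/-- the tilt, compared with the numerator -/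
lemma tilt {l t0 m : ℝ} (h0 : 0 ≤ t0) (h1 : t0 ≤ 1 / 100) (hl1 : |l| * t0 ≤ 1 / 100)
    (hm1 : t0 ≤ m) (hm2 : |l| * t0 ≤ m) :
    |Real.exp (-(l * t0) + t0 ^ 2 * (1 - l ^ 2 / 2)) - (1 - l * t0 + t0 ^ 2)| ≤
      50 * ((1 + l ^ 2) * t0 ^ 2 * m) := by
  set u : ℝ := -(l * t0) + t0 ^ 2 * (1 - l ^ 2 / 2) with hu
  set s : ℝ := |l| * t0 with hs
  set q : ℝ := (1 + l ^ 2) * t0 ^ 2 with hq
  have hs0 : 0 ≤ s := by positivity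
  have hm0 : 0 ≤ m := h0.trans hm1
  have hq0 : 0 ≤ q := by positivity
  have hqs : q = t0 ^ 2 + s ^ 2 := by
    rw [hq, hs, mul_pow, sq_abs]; ring
  have hq1 : q ≤ 1 / 5000 := by rw [hqs]; nlinarith
  have hqm : q ≤ m / 50 := by rw [hqs]; nlinarith
  have hm := abs_one_sub_le l
  have hua : |u| ≤ s + q := by
    calc |u| ≤ |-(l * t0)| + |t0 ^ 2 * (1 - l ^ 2 / 2)| := abs_add_le _ _
      _ = |l| * t0 + t0 ^ 2 * |1 - l ^ 2 / 2| := by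
          rw [abs_neg, abs_mul, abs_mul, abs_of_nonneg h0, abs_of_nonneg (sq_nonneg t0)]
      _ ≤ |l| * t0 + t0 ^ 2 * (1 + l ^ 2) := by gcongr
      _ = _ := by rw [hs, hq]; ring
  have hu0 := abs_nonneg u
  have hu2 : |u| ≤ 2 := hua.trans (by linarith)
  have h2 := exp_taylor hu2
  have hum : |u| ≤ 2 * m := by linarith
  have husq : |u| ^ 2 ≤ 3 * q := by
    have : |u| ^ 2 ≤ (s + q) ^ 2 := pow_le_pow_left₀ hu0 hua 2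
    have h5 : s ^ 2 ≤ q := by rw [hqs]; nlinarith [sq_nonneg t0]
    nlinarith [sq_nonneg (s - q)]
  have h3 : |u| ^ 3 ≤ 6 * (q * m) := by
    calc |u| ^ 3 = |u| ^ 2 * |u| := by ring
      _ ≤ (3 * q) * (2 * m) := by gcongr
      _ = _ := by ring
  set N0 : ℝ := 1 - l * t0 + t0 ^ 2 with hN0
  have h4 : |(1 + u + u ^ 2 / 2) - N0| ≤ 2 * (q * m) := by
    have e : (1 + u + u ^ 2 / 2) - N0 = -(l * t0 ^ 3 * (1 - l ^ 2 / 2)) +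
        t0 ^ 4 * (1 - l ^ 2 / 2) ^ 2 / 2 := by
      rw [hu, hN0]; ring
    rw [e]
    calc |-(l * t0 ^ 3 * (1 - l ^ 2 / 2)) + t0 ^ 4 * (1 - l ^ 2 / 2) ^ 2 / 2|
        ≤ |-(l * t0 ^ 3 * (1 - l ^ 2 / 2))| + |t0 ^ 4 * (1 - l ^ 2 / 2) ^ 2 / 2| := abs_add_le _ _
      _ = |l| * t0 ^ 3 * |1 - l ^ 2 / 2| + t0 ^ 4 * |1 - l ^ 2 / 2| ^ 2 / 2 := by
          rw [abs_neg, abs_mul, abs_mul, abs_of_nonneg (by positivity : (0 : ℝ) ≤ t0 ^ 3),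
            abs_of_nonneg (by positivity : (0 : ℝ) ≤ t0 ^ 4 * (1 - l ^ 2 / 2) ^ 2 / 2), sq_abs]
      _ ≤ |l| * t0 ^ 3 * (1 + l ^ 2) + t0 ^ 4 * (1 + l ^ 2) ^ 2 / 2 := by gcongr
      _ = s * q + q * q / 2 := by rw [hs, hq]; ring
      _ ≤ m * q + q * (m / 50) / 2 := by gcongr
      _ ≤ _ := by nlinarith [mul_nonneg hq0 hm0]
  calc |Real.exp u - N0| = |(Real.exp u - (1 + u + u ^ 2 / 2)) + ((1 + u + u ^ 2 / 2) - N0)| := by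
        congr 1; ring
    _ ≤ |Real.exp u - (1 + u + u ^ 2 / 2)| + |(1 + u + u ^ 2 / 2) - N0| := abs_add_le _ _
    _ ≤ 8 * (6 * (q * m)) + 2 * (q * m) := by linarith
    _ = _ := by ring

/-- one tilted Euler factor -/
lemma loc [Crv] {l t0 m a : ℝ} {t : ℂ} (ha : 1 ≤ a) (hla : |l| ≤ a) (hat : a * t0 ≤ 1 / 50)
    (h0 : 0 ≤ t0) (h1 : t0 ≤ 1 / 100) (hl1 : |l| * t0 ≤ 1 / 100)
    (hm1 : t0 ≤ m) (hm2 : |l| * t0 ≤ m) (ht : ‖t‖ ≤ t0) :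
    ‖(Real.exp (-(l * t0) + t0 ^ 2 * (1 - l ^ 2 / 2)) : ℂ) * (1 - l * t + t ^ 2)⁻¹ -
      (1 + l * (t - t0))‖ ≤ 80 * (a ^ 2 * (‖t - t0‖ * t0)) + 60 * ((1 + l ^ 2) * t0 ^ 2 * m) := by
  have hm0 : 0 ≤ m := h0.trans hm1
  have h5 := tilt h0 h1 hl1 hm1 hm2
  set N0 : ℝ := 1 - l * t0 + t0 ^ 2 with hN0
  set u : ℝ := -(l * t0) + t0 ^ 2 * (1 - l ^ 2 / 2) with hu
  set D : ℂ := 1 - l * t + t ^ 2 with hD
  have hDi : ‖D⁻¹‖ ≤ 103 / 100 := (P004X.Alg.inv_expand ht h1 hl1 hm1 hm2).2.1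
  have h6 := P004G.H293.ratio_bound ha hla hat (t := t) (y := (t0 : ℂ)) ht (by
    rw [Complex.norm_real, Real.norm_eq_abs, abs_of_nonneg h0])
  have e : (Real.exp u : ℂ) * D⁻¹ - (1 + l * (t - t0)) =
      ((Real.exp u - N0 : ℝ) : ℂ) * D⁻¹ +
        ((1 - l * (t0 : ℂ) + (t0 : ℂ) ^ 2) * D⁻¹ - (1 + l * (t - t0))) := by
    rw [hN0]
    push_cast
    ring
  rw [e]
  have hq0 : 0 ≤ (1 + l ^ 2) * t0 ^ 2 * m := by positivity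
  calc _ ≤ ‖((Real.exp u - N0 : ℝ) : ℂ) * D⁻¹‖ +
        ‖(1 - l * (t0 : ℂ) + (t0 : ℂ) ^ 2) * D⁻¹ - (1 + l * (t - t0))‖ := norm_add_le _ _
    _ ≤ (50 * ((1 + l ^ 2) * t0 ^ 2 * m)) * (103 / 100) + 80 * a ^ 2 * (‖t - t0‖ * t0) := by
        rw [norm_mul, Complex.norm_real, Real.norm_eq_abs]
        gcongr
    _ ≤ _ := by linarith

lemma loc0 {l t0 : ℝ} (h0 : 0 ≤ t0) (h1 : t0 ≤ 1 / 100) (hl1 : |l| * t0 ≤ 1 / 100) :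
    |Real.exp (t0 ^ 2 * (1 - l ^ 2 / 2)) - 1| ≤ 2 * ((1 + l ^ 2) * t0 ^ 2) := by
  have hm := abs_one_sub_le l
  have h2 : |t0 ^ 2 * (1 - l ^ 2 / 2)| ≤ (1 + l ^ 2) * t0 ^ 2 := by
    rw [abs_mul, abs_of_nonneg (sq_nonneg t0), mul_comm]
    gcongr
  have h3 : (1 + l ^ 2) * t0 ^ 2 ≤ 1 := by
    have e : (1 + l ^ 2) * t0 ^ 2 = t0 ^ 2 + (|l| * t0) ^ 2 := by
      rw [mul_pow, sq_abs]; ring
    have : 0 ≤ |l| * t0 := by positivity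
    rw [e]; nlinarith
  have := Real.abs_exp_sub_one_le (h2.trans h3)
  linarith

section coord

variable {p : ℕ} {g : ℝ → ℂ} {b : ℂ} {δ X E W : ℝ}

/-- the mean of one coordinate -/
lemma coord1 (hp : 1 ≤ p) (hWE : 1 / p * W ≤ E)
    (h0 : ‖g 0 - 1‖ ≤ 2 * W) (h1 : ‖g 1 - (1 + b)‖ ≤ 80 * X + 60 * E)
    (h2 : ‖g (-1) - (1 - b)‖ ≤ 80 * X + 60 * E) :
    ‖E1c p g - 1‖ ≤ 80 * X + 62 * E := by
  set B : ℝ := 80 * X + 60 * E with hB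
  have hB0 : 0 ≤ B := (norm_nonneg _).trans h1
  have hq0 : (0 : ℝ) ≤ 1 / p := by positivity
  have hq1 : (1 : ℝ) / p ≤ 1 := by
    rw [div_le_one (by exact_mod_cast hp)]; exact_mod_cast hp
  have e : E1c p g - 1 = ((1 / p : ℝ) : ℂ) * (g 0 - 1) + (((1 - 1 / p) / 2 : ℝ) : ℂ) *
      ((g 1 - (1 + b)) + (g (-1) - (1 - b))) := by
    unfold E1c
    push_cast
    ring
  rw [e]
  calc _ ≤ ‖((1 / p : ℝ) : ℂ) * (g 0 - 1)‖ + ‖(((1 - 1 / p) / 2 : ℝ) : ℂ) *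
        ((g 1 - (1 + b)) + (g (-1) - (1 - b)))‖ := norm_add_le _ _
    _ ≤ (1 / p) * (2 * W) + ((1 - 1 / p) / 2) * (B + B) := by
        rw [norm_mul, norm_mul, Complex.norm_real, Complex.norm_real, Real.norm_eq_abs,
          Real.norm_eq_abs, abs_of_nonneg hq0, abs_of_nonneg (by linarith :
            (0 : ℝ) ≤ (1 - 1 / p) / 2)]
        have : 0 ≤ (1 - 1 / (p : ℝ)) / 2 := by linarith
        gcongr
        exact (norm_add_le _ _).trans (add_le_add h1 h2)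
    _ ≤ 2 * E + B := by nlinarith
    _ = _ := by rw [hB]; ring

/-- the variance of one coordinate -/
lemma coord2 (hp : 1 ≤ p) (hW0 : 0 ≤ W) (hW1 : W ≤ 1 / 2500) (hWE : 1 / p * W ≤ E)
    (hE1 : E ≤ 1 / 2500) (hX0 : 0 ≤ X) (hXδ : X ≤ δ / 50) (hb : ‖b‖ ≤ δ)
    (h0 : ‖g 0 - 1‖ ≤ 2 * W) (h1 : ‖g 1 - (1 + b)‖ ≤ 80 * X + 60 * E)
    (h2 : ‖g (-1) - (1 - b)‖ ≤ 80 * X + 60 * E) :
    E1 p (fun x => ‖g x - 1‖ ^ 2) ≤ 18 * δ ^ 2 + 4 * E := by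
  set B : ℝ := 80 * X + 60 * E with hB
  have hδ0 : 0 ≤ δ := (norm_nonneg _).trans hb
  have hq0 : (0 : ℝ) ≤ 1 / p := by positivity
  have hE0 : 0 ≤ E := (mul_nonneg hq0 hW0).trans hWE
  have hB0 : 0 ≤ B := by positivity
  have hq1 : (1 : ℝ) / p ≤ 1 := by
    rw [div_le_one (by exact_mod_cast hp)]; exact_mod_cast hp
  have f1 : ‖g 1 - 1‖ ≤ δ + B := by
    calc ‖g 1 - 1‖ = ‖b + (g 1 - (1 + b))‖ := by congr 1; ring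
      _ ≤ ‖b‖ + ‖g 1 - (1 + b)‖ := norm_add_le _ _
      _ ≤ _ := by linarith
  have f2 : ‖g (-1) - 1‖ ≤ δ + B := by
    calc ‖g (-1) - 1‖ = ‖-b + (g (-1) - (1 - b))‖ := by congr 1; ring
      _ ≤ ‖-b‖ + ‖g (-1) - (1 - b)‖ := norm_add_le _ _
      _ ≤ _ := by rw [norm_neg]; linarith
  have hBle : δ + B ≤ 3 * δ + 60 * E := by
    rw [hB]; linarith
  have f3 : (δ + B) ^ 2 ≤ 18 * δ ^ 2 + 3 * E := by
    have h5 : (δ + B) ^ 2 ≤ (3 * δ + 60 * E) ^ 2 :=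
      pow_le_pow_left₀ (by positivity) hBle 2
    have h6 : (3 * δ + 60 * E) ^ 2 ≤ 2 * ((3 * δ) ^ 2 + (60 * E) ^ 2) := by
      nlinarith [sq_nonneg (3 * δ - 60 * E)]
    have h7 : E ^ 2 ≤ 1 / 2500 * E := by rw [sq]; gcongr
    nlinarith
  have g1 : ‖g 1 - 1‖ ^ 2 ≤ (δ + B) ^ 2 := pow_le_pow_left₀ (norm_nonneg _) f1 2
  have g2 : ‖g (-1) - 1‖ ^ 2 ≤ (δ + B) ^ 2 := pow_le_pow_left₀ (norm_nonneg _) f2 2
  have g0 : ‖g 0 - 1‖ ^ 2 ≤ (2 * W) ^ 2 := pow_le_pow_left₀ (norm_nonneg _) h0 2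
  have g3 : 1 / (p : ℝ) * (2 * W) ^ 2 ≤ E := by
    calc 1 / (p : ℝ) * (2 * W) ^ 2 = (1 / p * W) * (4 * W) := by ring
      _ ≤ E * 1 := by
          refine mul_le_mul hWE (by linarith) (by positivity) hE0
      _ = E := mul_one _
  unfold E1
  simp only
  calc 1 / (p : ℝ) * ‖g 0 - 1‖ ^ 2 + (1 - 1 / p) / 2 * (‖g 1 - 1‖ ^ 2 + ‖g (-1) - 1‖ ^ 2)
      ≤ 1 / (p : ℝ) * (2 * W) ^ 2 + (1 - 1 / p) / 2 * ((δ + B) ^ 2 + (δ + B) ^ 2) := by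
        have : 0 ≤ (1 - 1 / (p : ℝ)) / 2 := by linarith
        gcongr
    _ = 1 / (p : ℝ) * (2 * W) ^ 2 + (1 - 1 / p) * (δ + B) ^ 2 := by ring
    _ ≤ E + 1 * (δ + B) ^ 2 := by gcongr; linarith
    _ ≤ _ := by linarith

lemma quad {u c : ℂ} {B : ℝ} (hE0 : 0 ≤ E) (hE1 : E ≤ 1 / 2500) (hX0 : 0 ≤ X)
    (hXδ : X ≤ δ / 50) (hδ1 : δ ≤ 1 / 25) (hδX : δ ^ 2 ≤ 2 * X)
    (hB : B = 80 * X + 60 * E) (hu : ‖u‖ ≤ δ) (hc : ‖c - (1 + u)‖ ≤ B) :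
    ‖c ^ 2 - (1 + 2 * u)‖ ≤ 400 * X + 300 * E := by
  have hδ0 : 0 ≤ δ := (norm_nonneg _).trans hu
  have hB0 : 0 ≤ B := by rw [hB]; positivity
  have hB1 : B ≤ 1 := by rw [hB]; linarith
  set F := c - (1 + u) with hF
  have hc' : c = 1 + u + F := by rw [hF]; ring
  have : c ^ 2 - (1 + 2 * u) = u ^ 2 + 2 * (1 + u) * F + F ^ 2 := by rw [hc']; ring
  rw [this]
  have hu' : ‖1 + u‖ ≤ 3 / 2 := by
    refine (norm_add_le _ _).trans ?_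
    rw [norm_one]; linarith
  have h2 : B ^ 2 ≤ 1 * B := by rw [sq]; gcongr
  calc ‖u ^ 2 + 2 * (1 + u) * F + F ^ 2‖ ≤ ‖u ^ 2 + 2 * (1 + u) * F‖ + ‖F ^ 2‖ :=
        norm_add_le _ _
    _ ≤ (‖u ^ 2‖ + ‖2 * (1 + u) * F‖) + ‖F ^ 2‖ := by gcongr; exact norm_add_le _ _
    _ = (‖u‖ ^ 2 + 2 * ‖1 + u‖ * ‖F‖) + ‖F‖ ^ 2 := by
        rw [norm_pow, norm_pow, norm_mul, norm_mul]; simp
    _ ≤ (δ ^ 2 + 2 * (3 / 2) * B) + B ^ 2 := by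
        gcongr
    _ ≤ _ := by rw [hB] at h2 ⊢; linarith

/-- the fourth moment of one coordinate -/
lemma coord3 (hp : 1 ≤ p) (hW0 : 0 ≤ W) (hW1 : W ≤ 1 / 2500) (hWE : 1 / p * W ≤ E)
    (hE1 : E ≤ 1 / 2500) (hX0 : 0 ≤ X) (hXδ : X ≤ δ / 50) (hδ1 : δ ≤ 1 / 25)
    (hδX : δ ^ 2 ≤ 2 * X) (hb : ‖b‖ ≤ δ)
    (h0 : ‖g 0 - 1‖ ≤ 2 * W) (h1 : ‖g 1 - (1 + b)‖ ≤ 80 * X + 60 * E)
    (h2 : ‖g (-1) - (1 - b)‖ ≤ 80 * X + 60 * E) :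
    E1 p (fun x => ‖g x‖ ^ 4) ≤ 1 + 2000 * (X + E) := by
  have hδ0 : 0 ≤ δ := (norm_nonneg _).trans hb
  have hq0 : (0 : ℝ) ≤ 1 / p := by positivity
  have hE0 : 0 ≤ E := (mul_nonneg hq0 hW0).trans hWE
  set B₂ : ℝ := 400 * X + 300 * E with hB₂
  have hB₂0 : 0 ≤ B₂ := by positivity
  have hB₂1 : B₂ ≤ 1 := by rw [hB₂]; linarith
  set F : ℝ → ℂ := fun x => if x = 0 then 1 else g x ^ 2 with hF
  have key := P004.H293.E1_normSq_le (p := p) hp (F := F) (a := 2 * b) (A := 2 * δ) (B := B₂)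
    (by simp [hF])
    (by
      simp only [hF]
      rw [if_neg (by norm_num)]
      exact quad hE0 hE1 hX0 hXδ hδ1 hδX rfl hb h1)
    (by
      simp only [hF]
      rw [if_neg (by norm_num)]
      have h3 := quad (u := -b) (c := g (-1)) hE0 hE1 hX0 hXδ hδ1 hδX rfl
        (by rw [norm_neg]; exact hb) (by
        rw [← sub_eq_add_neg]; exact h2)
      rw [show (1 : ℂ) - 2 * b = 1 + 2 * -b by ring]
      exact h3)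
    (by
      rw [norm_mul]
      have : ‖(2 : ℂ)‖ = 2 := by simp
      rw [this]
      linarith)
  have g0 : ‖g 0‖ ≤ 1 + 2 * W := by
    calc ‖g 0‖ = ‖1 + (g 0 - 1)‖ := by congr 1; ring
      _ ≤ ‖(1 : ℂ)‖ + ‖g 0 - 1‖ := norm_add_le _ _
      _ ≤ _ := by rw [norm_one]; linarith
  have g04 : ‖g 0‖ ^ 4 ≤ 1 + 15 * W := by
    calc ‖g 0‖ ^ 4 ≤ (1 + 2 * W) ^ 4 := pow_le_pow_left₀ (norm_nonneg _) g0 4
      _ = ((1 + 2 * W) ^ 2) ^ 2 := by ring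
      _ ≤ (1 + 5 * W) ^ 2 := by
          gcongr
          nlinarith
      _ ≤ _ := by nlinarith
  have e1 : E1 p (fun x => ‖g x‖ ^ 4) = E1 p (fun x => ‖F x‖ ^ 2) + 1 / p * (‖g 0‖ ^ 4 - 1) := by
    have F0 : F 0 = 1 := if_pos rfl
    have F1 : F 1 = g 1 ^ 2 := if_neg (by norm_num)
    have F2 : F (-1) = g (-1) ^ 2 := if_neg (by norm_num)
    unfold E1
    simp only
    rw [F0, F1, F2, norm_one, norm_pow, norm_pow]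
    ring
  rw [e1]
  have f1 : (2 * δ) ^ 2 ≤ 8 * X := by nlinarith
  have f2 : 2 * (1 + 2 * δ) * B₂ ≤ 3 * B₂ := by
    have : 2 * (1 + 2 * δ) ≤ 3 := by linarith
    gcongr
  have f3 : B₂ ^ 2 ≤ 1 * B₂ := by rw [sq]; gcongr
  have f4 : 1 / (p : ℝ) * (‖g 0‖ ^ 4 - 1) ≤ 15 * E := by
    calc 1 / (p : ℝ) * (‖g 0‖ ^ 4 - 1) ≤ 1 / (p : ℝ) * (15 * W) := by
          gcongr; linarith
      _ = 15 * (1 / p * W) := by ring
      _ ≤ _ := by linarith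
  have f5 : E1 p (fun x => ‖F x‖ ^ 2) + 1 / p * (‖g 0‖ ^ 4 - 1) ≤
      1 + 8 * X + 3 * B₂ + 1 * B₂ + 15 * E := by linarith
  refine f5.trans ?_
  rw [hB₂]
  linarith

end coord

end P004E.M
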